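import Mathlib
import Vale.Agent.Lib.P344.Defs
import Vale.Agent.Lib.P344.Count
import Vale.Agent.Lib.P344.Rows

namespace Vale.Agent.Results.P344.AdditionCount

open Vale.Agent.Lib.P344

/-- Gate counts by type for the discrete Fourier transform. Let a linear circuit (gates `u + v`,
`u - v`, `c * u` with arbitrary complex constants `c`, values reusable) compute
`x ↦ F_n x`, `F_n = (ζ_n^{jk})`, `ζ_n = exp(2πi/n)`, `n ≥ 2`, and let `p` be the least prime
factor of `n` and `τ(n)` the number of divisors of `n`. Then the circuit has at least
`3n - n/p - 3` addition and subtraction gates, at least `n - τ(n)` scalar multiplication gates,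
and hence at least `4n - n/p - τ(n) - 3` gates.
The circuit is run on the initial list `x_0, …, x_{n-1}, 0`, and `out j` is the position of the
value designated as the `j`-th output. -/
theorem result (n : ℕ) (hn : 2 ≤ n) (gates : List Gate) (out : Fin n → ℕ)
    (h : ∀ (x : Fin n → ℂ) (j : Fin n),
      (run (List.ofFn x ++ [0]) gates).getD (out j) 0
        = ∑ k : Fin n, Complex.exp (2 * Real.pi * Complex.I / n) ^ ((j : ℕ) * (k : ℕ)) * x k) :
    3 * n ≤ cntAS gates + n / n.minFac + 3
      ∧ n ≤ cntS gates + (Nat.divisors n).card
      ∧ 4 * n ≤ gates.length + n / n.minFac + (Nat.divisors n).card + 3 := by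
  obtain ⟨h1, h2⟩ := four_n_bound n hn gates out h
  have h3 := cntAS_add_cntS gates
  exact ⟨h1, h2, by omega⟩

end Vale.Agent.Results.P344.AdditionCount
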