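import Mathlib
import Vale.Agent.Lib.P344.Defs
import Vale.Agent.Lib.P344.Indep

namespace Vale.Agent.Results.P344.ThreeNBound

open Vale.Agent.Lib.P344

/-- Every linear circuit (gates `u + v`, `u - v`, `c * u` with arbitrary complex constants `c`,
each gate of cost one, values reusable) that computes the unnormalized discrete Fourier
transform `x ↦ F_n x`, `F_n = (ζ_n^{jk})`, `ζ_n = exp(2πi/n)`, has at least `3n - τ(n) - 2`
gates, for every `n ≥ 2`, where `τ(n)` is the number of divisors of `n`.
The circuit is run on the initial list `x_0, …, x_{n-1}, 0`, and `out j` is the position of the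
value designated as the `j`-th output. -/
theorem result (n : ℕ) (hn : 2 ≤ n) (gates : List Gate) (out : Fin n → ℕ)
    (h : ∀ (x : Fin n → ℂ) (j : Fin n),
      (run (List.ofFn x ++ [0]) gates).getD (out j) 0
        = ∑ k : Fin n, Complex.exp (2 * Real.pi * Complex.I / n) ^ ((j : ℕ) * (k : ℕ)) * x k) :
    3 * n ≤ gates.length + (Nat.divisors n).card + 2 := by
  have h1 := lower_bound_scalar3 hn (dftRow n) (dft_ne_zero n) (dft_not_prop n hn)
    (κ := Jtype n) (fun i => i.1) (dft_indep n (by omega)) gates out h
  have h2 := card_Jtype n (by omega)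
  omega

end Vale.Agent.Results.P344.ThreeNBound
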